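import Mathlib
import Vale.Agent.P249.Combine2

open MeasureTheory

namespace Vale.Agent.Results.P249.LogLinear

universe u

/-- The `ℓ_p` norm of a vector of `ℝ^d`. -/
noncomputable def pnorm (p : ℝ) {d : ℕ} (y : Fin d → ℝ) : ℝ := (∑ k, |y k| ^ p) ^ (1 / p)

/-- Every `n`-point subset of every `L_p(μ)` admits a map into `ℓ_p^d` with distortion at most `D`. -/
def Suffices (p D : ℝ) (n d : ℕ) : Prop :=
  ∀ (Ω : Type u) [MeasurableSpace Ω] (μ : Measure Ω) (X : Finset (Lp ℝ (ENNReal.ofReal p) μ)),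
    X.card = n → ∃ (f : Lp ℝ (ENNReal.ofReal p) μ → Fin d → ℝ) (s : ℝ), 0 < s ∧
      ∀ x ∈ X, ∀ y ∈ X, s * ‖x - y‖ ≤ pnorm p (f x - f y) ∧ pnorm p (f x - f y) ≤ D * s * ‖x - y‖

/-- `d_p(n, D)`: the least dimension that suffices. -/
noncomputable def dimNeeded (p : ℝ) (n : ℕ) (D : ℝ) : ℕ := sInf {d | Suffices.{u} p D n d}

/-- `d_p(n, D) ≤ C_{p,D} n log n` for all real `p ≥ 1` and `D > 1`. -/
theorem result (p : ℝ) (hp : 1 ≤ p) (D : ℝ) (hD : 1 < D) :
    ∃ C : ℝ, ∀ n : ℕ, 2 ≤ n →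
      Suffices.{u} p D n (dimNeeded.{u} p n D) ∧ (dimNeeded.{u} p n D : ℝ) ≤ C * n * Real.log n := by
  classical
  set ε : ℝ := (D - 1) / (D + 1) with hε
  have hεpos : 0 < ε := div_pos (by linarith) (by linarith)
  have hε1 : ε < 1 := by rw [hε, div_lt_one (by linarith)]; linarith
  have hp0 : 0 < p := by linarith
  have hCp : 0 < Vale.Agent.P249.Cp p := by
    unfold Vale.Agent.P249.Cp
    have : (0:ℝ) < Vale.Agent.P249.base p := by
      exact_mod_cast (by have := Vale.Agent.P249.base_two p; omega : 0 < Vale.Agent.P249.base p)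
    positivity
  set C0 : ℝ := 12 * Vale.Agent.P249.Cp p / ε ^ 2 with hC0
  have hC0pos : 0 < C0 := by positivity
  -- the main estimate
  have key : ∀ n : ℕ, 2 ≤ n → Suffices.{u} p D n (⌈C0 * n * Real.log n⌉₊) := by
    intro n hn Ω _ μ X hX
    have : Fact (1 ≤ ENNReal.ofReal p) := ⟨by rw [← ENNReal.ofReal_one]; exact ENNReal.ofReal_le_ofReal hp⟩
    set N := ⌈C0 * n * Real.log n⌉₊ with hN
    have hcard : Fintype.card X = n := by rw [Fintype.card_coe, hX]
    have hn2 : (2:ℝ) ≤ n := by exact_mod_cast hn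
    have hlogn : Real.log 2 ≤ Real.log n := Real.log_le_log (by norm_num) hn2
    have hbound : 4 * (Vale.Agent.P249.Cp p * Fintype.card X) *
        Real.log (2 * (Fintype.card X : ℝ) ^ 2) / ε ^ 2 ≤ N := by
      refine le_trans ?_ (Nat.le_ceil _)
      rw [hcard]
      have h2 : Real.log (2 * (n : ℝ) ^ 2) ≤ 3 * Real.log n := by
        rw [Real.log_mul (by norm_num) (by positivity), Real.log_pow]
        push_cast
        linarith
      rw [hC0, div_mul_eq_mul_div, div_mul_eq_mul_div]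
      apply div_le_div_of_nonneg_right _ (by positivity)
      calc 4 * (Vale.Agent.P249.Cp p * (n : ℝ)) * Real.log (2 * (n : ℝ) ^ 2)
          ≤ 4 * (Vale.Agent.P249.Cp p * (n : ℝ)) * (3 * Real.log n) := mul_le_mul_of_nonneg_left h2 (by positivity)
        _ = _ := by ring
    obtain ⟨f, hf⟩ := Vale.Agent.P249.embed2 p hp (fun x : X => (x : Lp ℝ (ENNReal.ofReal p) μ)) Subtype.val_injective
      (by rw [hcard]; exact hn) ε hεpos hε1.le N hbound
    refine ⟨fun x => if h : x ∈ X then f ⟨x, h⟩ else 0, (1 - ε) ^ (1 / p), Real.rpow_pos_of_pos (by linarith) _, ?_⟩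
    intro x hx y hy
    simp only [hx, hy, dif_pos]
    obtain ⟨h1, h2⟩ := hf ⟨x, hx⟩ ⟨y, hy⟩
    have hpn : pnorm p (f ⟨x, hx⟩ - f ⟨y, hy⟩) = (∑ l, |f ⟨x, hx⟩ l - f ⟨y, hy⟩ l| ^ p) ^ (1 / p) := rfl
    have hroot : ∀ c : ℝ, 0 ≤ c → (c * ‖x - y‖ ^ p) ^ (1 / p) = c ^ (1 / p) * ‖x - y‖ := by
      intro c hc
      rw [Real.mul_rpow hc (Real.rpow_nonneg (norm_nonneg _) _), ← Real.rpow_mul (norm_nonneg _),
        mul_one_div_cancel hp0.ne', Real.rpow_one]
    constructor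
    · rw [hpn, ← hroot _ (by linarith)]
      exact Real.rpow_le_rpow (mul_nonneg (by linarith) (Real.rpow_nonneg (norm_nonneg _) _)) h1 (by positivity)
    · rw [hpn]
      have h3 : (∑ l, |f ⟨x, hx⟩ l - f ⟨y, hy⟩ l| ^ p) ^ (1 / p) ≤ ((1 + ε) * ‖x - y‖ ^ p) ^ (1 / p) :=
        Real.rpow_le_rpow (Finset.sum_nonneg fun l _ => Real.rpow_nonneg (abs_nonneg _) _) h2 (by positivity)
      refine h3.trans ?_
      rw [hroot _ (by linarith)]
      apply mul_le_mul_of_nonneg_right _ (norm_nonneg _)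
      have h4 : 1 + ε = D * (1 - ε) := by rw [hε]; field_simp; ring
      rw [h4, Real.mul_rpow (by linarith) (by linarith)]
      apply mul_le_mul_of_nonneg_right _ (Real.rpow_nonneg (by linarith) _)
      have h5 : D ^ (1 / p) ≤ D ^ (1 : ℝ) := Real.rpow_le_rpow_of_exponent_le hD.le (by rw [div_le_one hp0]; exact hp)
      rwa [Real.rpow_one] at h5
  refine ⟨C0 + 2, fun n hn => ?_⟩
  have hk := key n hn
  refine ⟨Nat.sInf_mem (s := {d | Suffices.{u} p D n d}) ⟨_, hk⟩, ?_⟩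
  have hle : dimNeeded.{u} p n D ≤ ⌈C0 * n * Real.log n⌉₊ := Nat.sInf_le hk
  have hn2 : (2:ℝ) ≤ n := by exact_mod_cast hn
  have hlog2 : 0.6931471803 < Real.log 2 := Real.log_two_gt_d9
  have hlogn : Real.log 2 ≤ Real.log n := Real.log_le_log (by norm_num) hn2
  have hlp : 0 ≤ Real.log n := by linarith
  have h6 : (⌈C0 * n * Real.log n⌉₊ : ℝ) ≤ C0 * n * Real.log n + 1 := (Nat.ceil_lt_add_one (by positivity)).le
  have h7 : (1:ℝ) ≤ 2 * n * Real.log n := by nlinarith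
  have h8 : (dimNeeded.{u} p n D : ℝ) ≤ (⌈C0 * n * Real.log n⌉₊ : ℝ) := by exact_mod_cast hle
  calc (dimNeeded.{u} p n D : ℝ) ≤ C0 * n * Real.log n + 1 := h8.trans h6
    _ ≤ C0 * n * Real.log n + 2 * n * Real.log n := by linarith
    _ = (C0 + 2) * n * Real.log n := by ring

end Vale.Agent.Results.P249.LogLinear
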