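import Mathlib
import Vale.Agent.P249.Lower

open MeasureTheory ProbabilityTheory

namespace Vale.Agent.Results.P249.TwoSided

universe u

/-- The `ℓ_p` norm of a vector of `ℝ^d`. -/
noncomputable def pnorm (p : ℝ) {d : ℕ} (y : Fin d → ℝ) : ℝ := (∑ k, |y k| ^ p) ^ (1 / p)

/-- Every `n`-point subset of every `L_p(μ)` admits a map into `ℓ_p^d` with distortion at most `D`. -/
def Suffices (p D : ℝ) (n d : ℕ) : Prop :=
  ∀ (Ω : Type u) [MeasurableSpace Ω] (μ : Measure Ω) (X : Finset (Lp ℝ (ENNReal.ofReal p) μ)),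
    X.card = n → ∃ (f : Lp ℝ (ENNReal.ofReal p) μ → Fin d → ℝ) (s : ℝ), 0 < s ∧
      ∀ x ∈ X, ∀ y ∈ X, s * ‖x - y‖ ≤ pnorm p (f x - f y) ∧ pnorm p (f x - f y) ≤ D * s * ‖x - y‖

/-- `d_p(n, D)`: the least dimension that suffices. -/
noncomputable def dimNeeded (p : ℝ) (n : ℕ) (D : ℝ) : ℕ := sInf {d | Suffices.{u} p D n d}

theorem upper (p : ℝ) (hp : 1 ≤ p) (D : ℝ) (hD : 1 < D) :
    ∃ C : ℝ, ∀ n : ℕ, 2 ≤ n →
      Suffices.{u} p D n (dimNeeded.{u} p n D) ∧ (dimNeeded.{u} p n D : ℝ) ≤ C * n * Real.log n := by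
  classical
  set ε : ℝ := (D - 1) / (D + 1) with hε
  have hεpos : 0 < ε := div_pos (by linarith) (by linarith)
  have hε1 : ε < 1 := by rw [hε, div_lt_one (by linarith)]; linarith
  have hp0 : 0 < p := by linarith
  have hCp : 0 < Vale.Agent.P249.Cp p := by
    unfold Vale.Agent.P249.Cp
    have : (0:ℝ) < Vale.Agent.P249.base p := by
      exact_mod_cast (by have := Vale.Agent.P249.base_two p; omega : 0 < Vale.Agent.P249.base p)
    positivity
  set C0 : ℝ := 12 * Vale.Agent.P249.Cp p / ε ^ 2 with hC0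
  have hC0pos : 0 < C0 := by positivity
  -- the main estimate
  have key : ∀ n : ℕ, 2 ≤ n → Suffices.{u} p D n (⌈C0 * n * Real.log n⌉₊) := by
    intro n hn Ω _ μ X hX
    have : Fact (1 ≤ ENNReal.ofReal p) := ⟨by rw [← ENNReal.ofReal_one]; exact ENNReal.ofReal_le_ofReal hp⟩
    set N := ⌈C0 * n * Real.log n⌉₊ with hN
    have hcard : Fintype.card X = n := by rw [Fintype.card_coe, hX]
    have hn2 : (2:ℝ) ≤ n := by exact_mod_cast hn
    have hlogn : Real.log 2 ≤ Real.log n := Real.log_le_log (by norm_num) hn2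
    have hbound : 4 * (Vale.Agent.P249.Cp p * Fintype.card X) *
        Real.log (2 * (Fintype.card X : ℝ) ^ 2) / ε ^ 2 ≤ N := by
      refine le_trans ?_ (Nat.le_ceil _)
      rw [hcard]
      have h2 : Real.log (2 * (n : ℝ) ^ 2) ≤ 3 * Real.log n := by
        rw [Real.log_mul (by norm_num) (by positivity), Real.log_pow]
        push_cast
        linarith
      rw [hC0, div_mul_eq_mul_div, div_mul_eq_mul_div]
      apply div_le_div_of_nonneg_right _ (by positivity)
      calc 4 * (Vale.Agent.P249.Cp p * (n : ℝ)) * Real.log (2 * (n : ℝ) ^ 2)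
          ≤ 4 * (Vale.Agent.P249.Cp p * (n : ℝ)) * (3 * Real.log n) := mul_le_mul_of_nonneg_left h2 (by positivity)
        _ = _ := by ring
    obtain ⟨f, hf⟩ := Vale.Agent.P249.embed2 p hp (fun x : X => (x : Lp ℝ (ENNReal.ofReal p) μ)) Subtype.val_injective
      (by rw [hcard]; exact hn) ε hεpos hε1.le N hbound
    refine ⟨fun x => if h : x ∈ X then f ⟨x, h⟩ else 0, (1 - ε) ^ (1 / p), Real.rpow_pos_of_pos (by linarith) _, ?_⟩
    intro x hx y hy
    simp only [hx, hy, dif_pos]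
    obtain ⟨h1, h2⟩ := hf ⟨x, hx⟩ ⟨y, hy⟩
    have hpn : pnorm p (f ⟨x, hx⟩ - f ⟨y, hy⟩) = (∑ l, |f ⟨x, hx⟩ l - f ⟨y, hy⟩ l| ^ p) ^ (1 / p) := rfl
    have hroot : ∀ c : ℝ, 0 ≤ c → (c * ‖x - y‖ ^ p) ^ (1 / p) = c ^ (1 / p) * ‖x - y‖ := by
      intro c hc
      rw [Real.mul_rpow hc (Real.rpow_nonneg (norm_nonneg _) _), ← Real.rpow_mul (norm_nonneg _),
        mul_one_div_cancel hp0.ne', Real.rpow_one]
    constructor
    · rw [hpn, ← hroot _ (by linarith)]
      exact Real.rpow_le_rpow (mul_nonneg (by linarith) (Real.rpow_nonneg (norm_nonneg _) _)) h1 (by positivity)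
    · rw [hpn]
      have h3 : (∑ l, |f ⟨x, hx⟩ l - f ⟨y, hy⟩ l| ^ p) ^ (1 / p) ≤ ((1 + ε) * ‖x - y‖ ^ p) ^ (1 / p) :=
        Real.rpow_le_rpow (Finset.sum_nonneg fun l _ => Real.rpow_nonneg (abs_nonneg _) _) h2 (by positivity)
      refine h3.trans ?_
      rw [hroot _ (by linarith)]
      apply mul_le_mul_of_nonneg_right _ (norm_nonneg _)
      have h4 : 1 + ε = D * (1 - ε) := by rw [hε]; field_simp; ring
      rw [h4, Real.mul_rpow (by linarith) (by linarith)]
      apply mul_le_mul_of_nonneg_right _ (Real.rpow_nonneg (by linarith) _)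
      have h5 : D ^ (1 / p) ≤ D ^ (1 : ℝ) := Real.rpow_le_rpow_of_exponent_le hD.le (by rw [div_le_one hp0]; exact hp)
      rwa [Real.rpow_one] at h5
  refine ⟨C0 + 2, fun n hn => ?_⟩
  have hk := key n hn
  refine ⟨Nat.sInf_mem (s := {d | Suffices.{u} p D n d}) ⟨_, hk⟩, ?_⟩
  have hle : dimNeeded.{u} p n D ≤ ⌈C0 * n * Real.log n⌉₊ := Nat.sInf_le hk
  have hn2 : (2:ℝ) ≤ n := by exact_mod_cast hn
  have hlog2 : 0.6931471803 < Real.log 2 := Real.log_two_gt_d9
  have hlogn : Real.log 2 ≤ Real.log n := Real.log_le_log (by norm_num) hn2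
  have hlp : 0 ≤ Real.log n := by linarith
  have h6 : (⌈C0 * n * Real.log n⌉₊ : ℝ) ≤ C0 * n * Real.log n + 1 := (Nat.ceil_lt_add_one (by positivity)).le
  have h7 : (1:ℝ) ≤ 2 * n * Real.log n := by nlinarith
  have h8 : (dimNeeded.{u} p n D : ℝ) ≤ (⌈C0 * n * Real.log n⌉₊ : ℝ) := by exact_mod_cast hle
  calc (dimNeeded.{u} p n D : ℝ) ≤ C0 * n * Real.log n + 1 := h8.trans h6
    _ ≤ C0 * n * Real.log n + 2 * n * Real.log n := by linarith
    _ = (C0 + 2) * n * Real.log n := by ring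

theorem lower_suff (p : ℝ) (hp : 2 ≤ p) (D : ℝ) (hD : 0 < D) (n d k : ℕ) (hk : 1 ≤ k) (hkn : (2 * k ^ 2 + 1) ^ k ≤ n)
    (hS : Suffices.{u} p D n d) (hn : 2 ≤ n) :
    1 ≤ d ∧ (k : ℝ) ^ (p / 2) ≤ 3 ^ (p - 1) * (d * (3 ^ (p - 1) * (D ^ p * ((Real.pi / 2) ^ p * Vale.Agent.P249.mom p + 2 * Vale.Agent.P249.Er p))) + 2 * Vale.Agent.P249.Er p) := by
  classical
  have hp0 : 0 < p := by linarith
  have hp1 : 1 ≤ p := by linarith
  have : Fact (1 ≤ ENNReal.ofReal p) := ⟨by rw [← ENNReal.ofReal_one]; exact ENNReal.ofReal_le_ofReal hp1⟩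
  have hT0 : MeasurePreserving (MeasurableEquiv.ulift.{0, u} (α := Vale.Agent.P249.Eu k)).symm (stdGaussian (Vale.Agent.P249.Eu k))
      ((stdGaussian (Vale.Agent.P249.Eu k)).map (MeasurableEquiv.ulift.{0, u} (α := Vale.Agent.P249.Eu k)).symm) :=
    (MeasurableEquiv.measurable _).measurePreserving _
  have hT := hT0.symm
  obtain ⟨φ, hφ⟩ := Vale.Agent.P249.emb_exists k p hp1 _ _ hT
  have hmom : 1 ≤ Vale.Agent.P249.mom p := Vale.Agent.P249.one_le_mom p hp
  set M : ℝ := Vale.Agent.P249.mom p ^ (1 / p) with hM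
  have hMpos : 0 < M := Real.rpow_pos_of_pos (by linarith) _
  have hinj : Function.Injective φ := by
    intro u v huv
    have h1 := hφ u v
    rw [huv, sub_self, norm_zero] at h1
    have h2 : ‖u - v‖ = 0 := by
      rcases mul_eq_zero.1 h1.symm with h | h
      · exact absurd h hMpos.ne'
      · exact h
    exact sub_eq_zero.1 (norm_eq_zero.1 h2)
  have hinf : Infinite (Lp ℝ (ENNReal.ofReal p) ((stdGaussian (Vale.Agent.P249.Eu k)).map (MeasurableEquiv.ulift.{0, u} (α := Vale.Agent.P249.Eu k)).symm)) := by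
    have h1 : Function.Injective (fun t : ℕ => φ (EuclideanSpace.single (⟨0, hk⟩ : Fin k) (t : ℝ))) := by
      intro t t' h
      have h2 := hinj h
      have h3 := congrArg (fun v : Vale.Agent.P249.Eu k => v ⟨0, hk⟩) h2
      simpa using h3
    exact Infinite.of_injective _ h1
  have hc0 : ((Vale.Agent.P249.Gr k).image φ).card ≤ n :=
    Finset.card_image_le.trans ((Vale.Agent.P249.Gr_card k).trans hkn)
  obtain ⟨X, hX0, hXc⟩ := Infinite.exists_superset_card_eq _ n hc0
  obtain ⟨f, s, hs, hf⟩ := hS _ _ X hXc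
  constructor
  · by_contra hd
    have hd0 : d = 0 := by omega
    subst hd0
    obtain ⟨x, hx, y, hy, hxy⟩ := Finset.one_lt_card.1 (by omega : 1 < X.card)
    have h1 := (hf x hx y hy).1
    have h2 : pnorm p (f x - f y) = 0 := by
      unfold pnorm
      rw [Finset.univ_eq_empty, Finset.sum_empty, Real.zero_rpow (by positivity)]
    rw [h2] at h1
    have h3 : 0 < ‖x - y‖ := norm_pos_iff.2 (sub_ne_zero.2 hxy)
    have := mul_pos hs h3
    linarith
  · have hmemX : ∀ u ∈ Vale.Agent.P249.Gr k, φ u ∈ X := fun u hu => hX0 (Finset.mem_image_of_mem φ hu)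
    apply Vale.Agent.P249.lower_main p hp k hk d D (s * M) (by positivity) hD (fun u => f (φ u))
    · intro u hu v hv
      have h1 := (hf _ (hmemX u hu) _ (hmemX v hv)).1
      rw [hφ, ← mul_assoc] at h1
      exact h1
    · intro u hu v hv
      have h1 := (hf _ (hmemX u hu) _ (hmemX v hv)).2
      rw [hφ] at h1
      refine le_trans h1 (le_of_eq ?_)
      ring

/-- For `p > 2` and `D > 1`: `c (log n / log log n)^(p/2) ≤ d_p(n, D) ≤ C n log n`. -/
theorem result (p : ℝ) (hp : 2 < p) (D : ℝ) (hD : 1 < D) :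
    ∃ c C : ℝ, 0 < c ∧ ∀ n : ℕ, 16 ≤ n →
      Suffices.{u} p D n (dimNeeded.{u} p n D) ∧
      c * (Real.log n / Real.log (Real.log n)) ^ (p / 2) ≤ (dimNeeded.{u} p n D : ℝ) ∧
      (dimNeeded.{u} p n D : ℝ) ≤ C * n * Real.log n := by
  have hp0 : 0 < p := by linarith
  obtain ⟨C, hC⟩ := upper.{u} p (by linarith) D hD
  set C1 : ℝ := 3 ^ (p - 1) * (D ^ p * ((Real.pi / 2) ^ p * Vale.Agent.P249.mom p + 2 * Vale.Agent.P249.Er p)) with hC1
  set C3 : ℝ := 3 ^ (p - 1) * (C1 + 2 * Vale.Agent.P249.Er p) with hC3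
  have hmom : 1 ≤ Vale.Agent.P249.mom p := Vale.Agent.P249.one_le_mom p hp.le
  have hmom2 := Vale.Agent.P249.mom_nonneg (2 * p)
  have hEr : 0 < Vale.Agent.P249.Er p := by
    unfold Vale.Agent.P249.Er; positivity
  have hpi := Real.pi_pos
  have hDp : 0 < D := by linarith
  have hC1pos : 0 < C1 := by
    rw [hC1]
    have : 0 < Vale.Agent.P249.mom p := by linarith
    positivity
  have hC3pos : 0 < C3 := by positivity
  refine ⟨min ((1 / 8) ^ (p / 2) / C3) ((1 / 4) ^ (p / 2)), C, lt_min (by positivity) (by positivity), fun n hn => ?_⟩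
  obtain ⟨hS, hup⟩ := hC n (by omega)
  refine ⟨hS, ?_, hup⟩
  set d := dimNeeded.{u} p n D with hd
  have hn16 : (16:ℝ) ≤ n := by exact_mod_cast hn
  have hlog2 : 0.6931471803 < Real.log 2 := Real.log_two_gt_d9
  have hl : 2.77258 < Real.log n := by
    have h1 : Real.log 16 ≤ Real.log n := Real.log_le_log (by norm_num) hn16
    have h2 : Real.log 16 = 4 * Real.log 2 := by
      rw [show (16:ℝ) = 2 ^ 4 by norm_num, Real.log_pow]; norm_num
    linarith
  have he : Real.exp 1 < 2.7182818286 := Real.exp_one_lt_d9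
  have hm : 1 ≤ Real.log (Real.log n) := by
    rw [Real.le_log_iff_exp_le (by linarith)]
    linarith
  set l := Real.log n with hlE
  set m := Real.log l with hmE
  have hy0 : 0 ≤ l / (4 * m) := by positivity
  have hlm : 0 ≤ l / m := by positivity
  have hd1 : (1:ℝ) ≤ d := by
    have h1 := (lower_suff.{u} p hp.le D hDp n d 1 le_rfl (by norm_num; omega) hS (by omega)).1
    exact_mod_cast h1
  rcases lt_or_ge (l / (4 * m)) 1 with hy | hy
  · have h1 : l / m < 4 := by
      rw [div_lt_iff₀ (by positivity)] at hy ⊢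
      linarith
    calc min ((1 / 8) ^ (p / 2) / C3) ((1 / 4) ^ (p / 2)) * (l / m) ^ (p / 2)
        ≤ (1 / 4) ^ (p / 2) * 4 ^ (p / 2) := by
          apply mul_le_mul (min_le_right _ _) _ (by positivity) (by positivity)
          exact Real.rpow_le_rpow hlm h1.le (by positivity)
      _ = 1 := by rw [← Real.mul_rpow (by norm_num) (by norm_num)]; norm_num
      _ ≤ d := hd1
  · set k := ⌊l / (4 * m)⌋₊ with hk
    have hk1 : 1 ≤ k := Nat.le_floor (by simpa using hy)
    have hkle : (k:ℝ) ≤ l / (4 * m) := Nat.floor_le hy0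
    have hkge : l / (8 * m) ≤ k := by
      have h1 : l / (4 * m) < k + 1 := Nat.lt_floor_add_one _
      have h2 : l / (8 * m) = l / (4 * m) / 2 := by field_simp; norm_num
      have h3 : (1:ℝ) ≤ k := by exact_mod_cast hk1
      rw [h2]; linarith
    have hkl : (k:ℝ) ≤ l := by
      refine hkle.trans ?_
      rw [div_le_iff₀ (by positivity)]
      nlinarith
    have hkn : (2 * k ^ 2 + 1) ^ k ≤ n := by
      rcases Nat.lt_or_ge k 2 with h | h
      · have : k = 1 := by omega
        rw [this]; norm_num; omega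
      · have h1 : 2 * k ^ 2 + 1 ≤ k ^ 4 := by
          have : 4 ≤ k ^ 2 := by nlinarith
          nlinarith [this]
        have h2 : (2 * k ^ 2 + 1) ^ k ≤ k ^ (4 * k) := by
          rw [pow_mul]; exact Nat.pow_le_pow_left h1 k
        refine h2.trans ?_
        have h3 : ((k ^ (4 * k) : ℕ) : ℝ) ≤ n := by
          push_cast
          have hkpos : (0:ℝ) < k := by exact_mod_cast (by omega : 0 < k)
          rw [← Real.log_le_log_iff (by positivity) (by linarith), Real.log_pow]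
          push_cast
          have h4 : Real.log k ≤ m := Real.log_le_log hkpos hkl
          have h5 : 0 ≤ Real.log k := Real.log_nonneg (by exact_mod_cast hk1)
          have h6 : (k:ℝ) * (4 * m) ≤ l := by rwa [le_div_iff₀ (by positivity)] at hkle
          calc 4 * (k:ℝ) * Real.log k ≤ 4 * (k:ℝ) * m := mul_le_mul_of_nonneg_left h4 (by positivity)
            _ = (k:ℝ) * (4 * m) := by ring
            _ ≤ l := h6
        exact_mod_cast h3
    have hlow := (lower_suff.{u} p hp.le D hDp n d k hk1 hkn hS (by omega)).2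
    have h7 : (k:ℝ) ^ (p / 2) ≤ C3 * d := by
      refine hlow.trans ?_
      rw [hC3, mul_assoc]
      apply mul_le_mul_of_nonneg_left _ (by positivity)
      rw [← hC1]
      nlinarith
    have h8 : (l / (8 * m)) ^ (p / 2) ≤ C3 * d := (Real.rpow_le_rpow (by positivity) hkge (by positivity)).trans h7
    have h9 : (l / (8 * m)) ^ (p / 2) = (1 / 8) ^ (p / 2) * (l / m) ^ (p / 2) := by
      rw [← Real.mul_rpow (by norm_num) hlm]
      congr 1; field_simp
    rw [h9] at h8
    calc min ((1 / 8) ^ (p / 2) / C3) ((1 / 4) ^ (p / 2)) * (l / m) ^ (p / 2)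
        ≤ (1 / 8) ^ (p / 2) / C3 * (l / m) ^ (p / 2) := mul_le_mul_of_nonneg_right (min_le_left _ _) (by positivity)
      _ = ((1 / 8) ^ (p / 2) * (l / m) ^ (p / 2)) / C3 := by ring
      _ ≤ (C3 * d) / C3 := div_le_div_of_nonneg_right h8 hC3pos.le
      _ = d := by field_simp

end Vale.Agent.Results.P249.TwoSided
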